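import Crest.Agent.N067.A.Calc
import Crest.Agent.N067.A.Stab

-- ▼ part N067/X7/Defs
section

/-!
# Row 67, block X7 (S0089 from S0090): frozen definitions and statements (helper1, note h1-X7)

`u : ℝ⁸ → (-1,1)` monotone in `x₈`, `u 0 = 0`, energy `≤ Θ R⁷` in every ball.
`d = dd u`, `σ = ∂₈ d`, `μ = ψ² dx`, `P = ψ² t / 4`, `en = (ψ²/2)(1 - t/2)`.
Three PROVIDER statements (`AreaStmt`, `TubeStmt`, `SMStmt`) come from the S0090 machine
(X1 weak form, master inequality); everything else is elementary.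
-/

set_option autoImplicit false

open MeasureTheory Laplacian InnerProductSpace Topology Filter Set Metric
open scoped RealInnerProductSpace ContDiff Gradient

namespace Crest.Agent.N067.X7

open Crest.Agent.R077

noncomputable section

/-- the basics used by the leaves (proved in `N067/A`). -/
structure Bas : Prop where
  reg : RegStmt
  deq : DEqStmt
  modica : ModicaStmt
  ball : BallStmt

section generic
variable {n : ℕ}

/-- two-sided paraboloid bound for `d` at `x` with opening `φ` -/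
def Par (v : EE n → ℝ) (x : EE n) (φ : ℝ) : Prop :=
  ∀ z, |dd v z - dd v x - ⟪∇ (dd v) x, z - x⟫| ≤ φ / 2 * ‖z - x‖ ^ 2

/-- the (open) set of points without the paraboloid bound -/
def bad (v : EE n → ℝ) (φ : ℝ) : Set (EE n) := {x | ¬ Par v x φ}

/-- `d` is within `β r` of an affine function on the ball of radius `r` at the origin -/
def Flat (v : EE n → ℝ) (r β : ℝ) : Prop :=
  ∃ (e : EE n) (c : ℝ), ∀ z ∈ ball (0 : EE n) r, |dd v z - ⟪e, z⟫ - c| ≤ β * r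

/-- `∫_A f dμ`, `μ = ψ² dx` -/
def mu (v : EE n → ℝ) (A : Set (EE n)) (f : EE n → ℝ) : ℝ := ∫ x in A, f x * psi v x ^ 2

/-- cut-off: `1` on `‖x‖ ≤ R`, `0` on `‖x‖ ≥ 2R` -/
def cut (R : ℝ) (x : EE n) : ℝ := 1 - chi R x

/-- Japanese bracket -/
def br (x : EE n) : ℝ := Real.sqrt (1 + ‖x‖ ^ 2)

/-- the weight `cut² ⟨x⟩⁻⁵` -/
def zeta (R : ℝ) (x : EE n) : ℝ := cut R x ^ 2 / br x ^ 5

/-- discrepancy `P = W(v) - |∇v|²/2 = ψ² t / 4` -/
def PP (v : EE n → ℝ) (x : EE n) : ℝ := psi v x ^ 2 * tt v x / 4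

end generic


/-- the last unit vector of `ℝ⁸` -/
def e8 : EE 8 := ev (Fin.last 7)

/-- `σ = ∂₈ d` -/
def sig (u : EE 8 → ℝ) : EE 8 → ℝ := pdv (Fin.last 7) (dd u)

/-- energy bound at all centres -/
def EnB (v : EE 8 → ℝ) (Θ : ℝ) : Prop :=
  ∀ (x : EE 8) (R : ℝ), 1 ≤ R → ∫ z in ball x R, en v z ≤ Θ * R ^ 7

/-- the standing hypotheses of X7 -/
structure Mo (u : EE 8 → ℝ) (Θ : ℝ) : Prop where
  sol : Sol u
  mono : MonoLast (n := 7) u
  stab : Stable u
  enb : EnB u Θ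
  zero : u 0 = 0

/-- vertical tube of radius `s` and half height `h` -/
def tube (s h : ℝ) : Set (EE 8) := {x | ‖init (n := 7) x‖ < s ∧ |x (Fin.last 7)| < h}

/-- the size of the curvature terms seen by the weight `g` -/
def curv (u g : EE 8 → ℝ) (x : EE 8) : ℝ := (hsq (dd u) x + qq u x) * g x ^ 2 + gsq g x

/-- alternative on the ball `B(y,s)`: one sign on the half ball, or a unit-slope affine profile -/
def Alt (u : EE 8 → ℝ) (y : EE 8) (s ε : ℝ) : Prop :=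
  (∀ z ∈ ball y (s / 2), 0 < u z) ∨ (∀ z ∈ ball y (s / 2), u z < 0) ∨
    ∃ (e : EE 8) (c : ℝ), ‖e‖ = 1 ∧ |c| ≤ s / 2 + 4 * ε * s ∧
      ∀ z ∈ ball y s, |dd u z - ⟪e, z - y⟫ - c| ≤ 4 * ε * s

/-! ### properties delivered by the S0090 machine -/

/-- few points have a small regularity scale -/
def Area (u : EE 8 → ℝ) : Prop :=
  ∃ (p : ℕ) (C : ℝ), 1 ≤ p ∧ ∀ r f : ℝ, 1 ≤ f → f ≤ r →
    (mu u (ball 0 r ∩ bad u (1 / f)) (fun _ => 1) / r ^ 7) ^ p ≤ C * (f / r)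

/-- in long thin vertical tubes most of the mass is flat at the scale of the radius -/
def Tube (u : EE 8 → ℝ) : Prop :=
  ∀ ε : ℝ, 0 < ε → ∃ (J : ℕ) (s0 : ℝ), 1 ≤ J ∧ ∀ s : ℝ, s0 ≤ s →
    mu u (tube s ((2 * J + 1) * s) ∩ bad u (ε / s)) (fun _ => 1) ≤ ε * J * s ^ 7


def AreaStmt : Prop := ∀ u Θ, Mo u Θ → Area u
def TubeStmt : Prop := ∀ u Θ, Mo u Θ → Tube u

/-! ### elementary statements -/

/-- weak form of `Δ_μ` -/
def WeakStmt : Prop := ∀ (n : ℕ) (v f ζ : EE n → ℝ), Sol v → ContDiff ℝ 2 f → ContDiff ℝ 1 ζ →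
  HasCompactSupport ζ →
  ∫ x, Lm v f x * ζ x * psi v x ^ 2 = -∫ x, gin f ζ x * psi v x ^ 2

/-- the stress-energy tensor `en · I - ∇v ⊗ ∇v` is divergence free -/
def StressStmt : Prop := ∀ (n : ℕ) (v : EE n → ℝ) (X : Fin n → EE n → ℝ), Sol v →
  (∀ i, ContDiff ℝ 1 (X i)) → (∀ i, HasCompactSupport (X i)) →
  ∫ x, (en v x * ∑ i, pdv i (X i) x - ∑ i, ∑ j, pdv i v x * pdv j v x * pdv i (X j) x) = 0

/-- lower density bound at the points of the zero set -/
def DensStmt : Prop := ∃ c : ℝ, 0 < c ∧ ∀ (v : EE 8 → ℝ) (y : EE 8), Sol v → v y = 0 →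
  ∀ ρ : ℝ, 1 ≤ ρ → c * ρ ^ 7 ≤ mu v (ball y ρ) (fun _ => 1)

/-- the error terms of Modica's monotonicity formula are summable -/
def MonStmt : Prop := ∀ (v : EE 8 → ℝ) (Θ : ℝ), Sol v → EnB v Θ → ∃ C : ℝ, ∀ R : ℝ, 1 ≤ R →
  ∫ x in ball (0 : EE 8) R,
    (en v x / br x ^ 9 + PP v x / br x ^ 7 + ⟪∇ v x, x⟫ ^ 2 / br x ^ 9) ≤ C

/-- `⟨x⟩⁻⁵` is `μ`-harmonic up to absorbable errors -/
def KStmt : Prop := ∀ (v : EE 8 → ℝ) (Θ : ℝ), Sol v → EnB v Θ → ∀ η : ℝ, 0 < η → ∃ C : ℝ,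
  ∀ R : ℝ, 1 ≤ R → ∀ F G : EE 8 → ℝ, ContDiff ℝ 1 F → (∀ x, |F x| ≤ 1) → Continuous G →
    (∀ x, gsq F x ≤ G x) →
    |∫ x, gin F (zeta R) x * psi v x ^ 2| ≤ η * (∫ x, G x * zeta R x * psi v x ^ 2) + C











/-- vanishing height forces `t = 0` somewhere -/
def FinStmt : Prop := ∀ u Θ, Mo u Θ →
  (∀ η R0 : ℝ, 0 < η → ∃ R, R0 ≤ R ∧ 0 < R ∧ Flat u R (η / R)) → ∃ x, tt u x = 0

/-- the conclusion of X7 with the origin on the zero set -/
def CoreStmt : Prop := ∀ u Θ, Mo u Θ → ∃ x, tt u x = 0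


end

end Crest.Agent.N067.X7
end

-- ▼ part N067/X7/Basic

/-! # Row 67, X7: basic API (helper1) -/

set_option autoImplicit false

open MeasureTheory Laplacian InnerProductSpace Topology Filter Set Metric
open scoped RealInnerProductSpace ContDiff Gradient

namespace Crest.Agent.N067.X7

open Crest.Agent.R077

variable {n : ℕ}

theorem Bas.dd_smooth (hB : Bas) {v : EE n → ℝ} (h : Sol v) : ContDiff ℝ ∞ (dd v) :=
  (hB.deq n v h).1


theorem Bas.tt_nonneg (hB : Bas) {v : EE n → ℝ} (h : Sol v) (x : EE n) : 0 ≤ tt v x :=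
  hB.modica n v h x

theorem tt_le_one (v : EE n → ℝ) (x : EE n) : tt v x ≤ 1 := by
  unfold tt; nlinarith [sq_nonneg ‖∇ (dd v) x‖]

theorem Bas.norm_grad_le (hB : Bas) {v : EE n → ℝ} (h : Sol v) (x : EE n) : ‖∇ (dd v) x‖ ≤ 1 := by
  have := hB.tt_nonneg h x
  unfold tt at this
  nlinarith [norm_nonneg (∇ (dd v) x)]

theorem psi_le_one (v : EE n → ℝ) (x : EE n) : psi v x ≤ 1 := by
  unfold psi; nlinarith [sq_nonneg (v x)]

theorem cont_psi {v : EE n → ℝ} (h : Sol v) : Continuous (psi v) := h.contDiff_psi.continuous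

theorem Bas.qq_nonneg (hB : Bas) {v : EE n → ℝ} (h : Sol v) (x : EE n) : 0 ≤ qq v x :=
  mul_nonneg (h.psi_pos x).le (hB.tt_nonneg h x)

theorem Bas.PP_nonneg (hB : Bas) {v : EE n → ℝ} (h : Sol v) (x : EE n) : 0 ≤ PP v x := by
  have := hB.tt_nonneg h x
  unfold PP; positivity

theorem en_eq {v : EE n → ℝ} (h : Sol v) (x : EE n) :
    en v x = psi v x ^ 2 / 2 * (1 - tt v x / 2) := by
  have := h.grad_sq x
  unfold en
  have h2 : (1 - v x ^ 2) = psi v x := rfl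
  rw [h2]; linarith

theorem en_sub {v : EE n → ℝ} (h : Sol v) (x : EE n) : en v x - ‖∇ v x‖ ^ 2 = PP v x := by
  have := h.grad_sq x
  rw [en_eq h]; unfold PP; linarith

theorem en_nonneg (v : EE n → ℝ) (x : EE n) : 0 ≤ en v x := by unfold en; positivity

theorem psi_sq_le (v : EE n → ℝ) (x : EE n) : psi v x ^ 2 ≤ 4 * en v x := by
  unfold en psi; nlinarith [sq_nonneg ‖∇ v x‖]

theorem Bas.en_le (hB : Bas) {v : EE n → ℝ} (h : Sol v) (x : EE n) : en v x ≤ psi v x ^ 2 / 2 := by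
  have := hB.tt_nonneg h x
  rw [en_eq h]; nlinarith [sq_nonneg (psi v x)]

theorem cont_en {v : EE n → ℝ} (h : Sol v) : Continuous (en v) := by
  have h1 := St.continuous_grad (contDiff_infty.1 h.sm 1)
  have h2 := h.sm.continuous
  unfold en; fun_prop

theorem cont_gsq {f : EE n → ℝ} (hf : ContDiff ℝ 1 f) : Continuous (gsq f) := by
  have := fun i => St.continuous_pdv hf i
  unfold gsq; fun_prop

theorem cont_gin {f g : EE n → ℝ} (hf : ContDiff ℝ 1 f) (hg : ContDiff ℝ 1 g) :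
    Continuous (gin f g) := by
  have h1 := fun i => St.continuous_pdv hf i
  have h2 := fun i => St.continuous_pdv hg i
  unfold gin; fun_prop

theorem cont_hsq {f : EE n → ℝ} (hf : ContDiff ℝ ∞ f) : Continuous (hsq f) := by
  have := fun i j => (St.contDiff_pdv_top (St.contDiff_pdv_top hf j) i).continuous
  unfold hsq hs; fun_prop





theorem Par.mono {v : EE n → ℝ} {x : EE n} {φ φ' : ℝ} (h : Par v x φ) (hφ : φ ≤ φ') :
    Par v x φ' := fun z => (h z).trans (by gcongr)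


theorem Flat.mono {v : EE n → ℝ} {r β β' : ℝ} (h : Flat v r β) (hr : 0 ≤ r) (hβ : β ≤ β') :
    Flat v r β' := by
  obtain ⟨e, c, h⟩ := h
  exact ⟨e, c, fun z hz => (h z hz).trans (by gcongr)⟩

theorem Flat.sub {v : EE n → ℝ} {r r' β β' : ℝ} (h : Flat v r β) (hr : r' ≤ r)
    (hβ : β * r ≤ β' * r') : Flat v r' β' := by
  obtain ⟨e, c, h⟩ := h
  exact ⟨e, c, fun z hz => (h z (ball_subset_ball hr hz)).trans hβ⟩


theorem intOn {f : EE n → ℝ} (hf : Continuous f) {A : Set (EE n)} {y : EE n} {r : ℝ}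
    (hA : A ⊆ ball y r) : IntegrableOn f A :=
  (hf.continuousOn.integrableOn_compact (isCompact_closedBall y r)).mono_set
    (hA.trans ball_subset_closedBall)

theorem intOn_mu {v f : EE n → ℝ} (h : Sol v) (hf : Continuous f) {A : Set (EE n)} {y : EE n}
    {r : ℝ} (hA : A ⊆ ball y r) : IntegrableOn (fun x => f x * psi v x ^ 2) A :=
  intOn (hf.mul ((cont_psi h).pow 2)) hA



theorem mu_mono_fun {v f g : EE n → ℝ} (h : Sol v) (hf : Continuous f) (hg : Continuous g)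
    {A : Set (EE n)} (hA : MeasurableSet A) {y : EE n} {r : ℝ} (hB : A ⊆ ball y r)
    (hfg : ∀ x ∈ A, f x ≤ g x) : mu v A f ≤ mu v A g :=
  setIntegral_mono_on (intOn_mu h hf hB) (intOn_mu h hg hB) hA
    fun x hx => mul_le_mul_of_nonneg_right (hfg x hx) (sq_nonneg _)




theorem EnB.nonneg {v : EE 8 → ℝ} {Θ : ℝ} (hE : EnB v Θ) : 0 ≤ Θ := by
  have h1 := hE 0 1 le_rfl
  have h2 : 0 ≤ ∫ z in ball (0 : EE 8) 1, en v z := integral_nonneg fun x => en_nonneg v x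
  linarith

/-! ### cut-off and bracket -/

theorem contDiff_cut' (R : ℝ) : ContDiff ℝ ∞ (cut R : EE n → ℝ) :=
  contDiff_const.sub (contDiff_chi (m := ⊤) R)

theorem cut_nonneg (R : ℝ) (x : EE n) : 0 ≤ cut R x := by
  have := chi_le_one R x; unfold cut; linarith

theorem cut_le_one (R : ℝ) (x : EE n) : cut R x ≤ 1 := by
  have := chi_nonneg R x; unfold cut; linarith

theorem cut_one {R : ℝ} (hR : 0 < R) {x : EE n} (h : ‖x‖ ≤ R) : cut R x = 1 := by
  unfold cut; rw [chi_zero hR h]; ring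

/-- the cut-off vanishes already for `‖x‖ ≥ 3R/2` -/
theorem cut_zero' {R : ℝ} (hR : 0 < R) {x : EE n} (h : 3 / 2 * R ≤ ‖x‖) : cut R x = 0 := by
  unfold cut chi chi1
  rw [Real.smoothTransition.one_of_one_le]; · ring
  rw [norm_smul, Real.norm_eq_abs, abs_of_pos (inv_pos.2 hR)]
  have : 3 / 2 ≤ R⁻¹ * ‖x‖ := by rw [le_inv_mul_iff₀ hR]; linarith
  nlinarith

theorem cut_zero {R : ℝ} (hR : 0 < R) {x : EE n} (h : 2 * R ≤ ‖x‖) : cut R x = 0 :=
  cut_zero' hR (by linarith)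


theorem pdv_cut_far {R : ℝ} (hR : 0 < R) {x : EE n} (h : 2 * R ≤ ‖x‖) (i : Fin n) :
    pdv i (cut R) =ᶠ[𝓝 x] fun _ => 0 := by
  have h1 : {y : EE n | 3 / 2 * R < ‖y‖} ∈ 𝓝 x :=
    (isOpen_lt continuous_const continuous_norm).mem_nhds (by show 3 / 2 * R < ‖x‖; linarith)
  filter_upwards [eventually_eventually_nhds.2 h1] with y hy
  have : (cut R : EE n → ℝ) =ᶠ[𝓝 y] fun _ => 0 := by
    filter_upwards [hy] with z hz using cut_zero' hR (le_of_lt hz)
  rw [pdv_congr this, pdv_const]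

theorem pdv_cut_near {R : ℝ} (hR : 0 < R) {x : EE n} (h : ‖x‖ < R) (i : Fin n) :
    pdv i (cut R) =ᶠ[𝓝 x] fun _ => 0 := by
  have h1 : {y : EE n | ‖y‖ < R} ∈ 𝓝 x :=
    (isOpen_lt continuous_norm continuous_const).mem_nhds h
  filter_upwards [eventually_eventually_nhds.2 h1] with y hy
  have : (cut R : EE n → ℝ) =ᶠ[𝓝 y] fun _ => 1 := by
    filter_upwards [hy] with z hz using cut_one hR (le_of_lt hz)
  rw [pdv_congr this, pdv_const]

/-- first and second derivatives of the cut-off -/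
theorem exists_cut_bound (n : ℕ) : ∃ C : ℝ, 0 ≤ C ∧ ∀ R : ℝ, 0 < R → ∀ (i : Fin n) (x : EE n),
    |pdv i (cut R) x| ≤ C / R ∧ |pdv i (pdv i (cut R)) x| ≤ C / R ^ 2 := by
  obtain ⟨C, hC, h⟩ := exists_chi1_bound (n := n)
  refine ⟨C, hC, fun R hR i x => ?_⟩
  have h1 : pdv i (cut R : EE n → ℝ) = fun y => -pdv i (chi R) y := by
    funext y; exact pdv_const_sub 1 (chi R) i y
  constructor
  · rw [h1]; simp only [abs_neg]
    rw [pdv_chi, abs_mul, abs_of_pos (inv_pos.2 hR), div_eq_inv_mul]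
    exact mul_le_mul_of_nonneg_left (h i _).1 (inv_pos.2 hR).le
  · rw [h1, pdv_neg, abs_neg, pdv2_chi, abs_mul, abs_mul, abs_of_pos (inv_pos.2 hR)]
    have := (h i (R⁻¹ • x)).2
    have h2 : C / R ^ 2 = R⁻¹ * (R⁻¹ * C) := by field_simp
    rw [h2]; gcongr

theorem exists_gsq_cut (n : ℕ) : ∃ C : ℝ, 0 ≤ C ∧ ∀ R : ℝ, 0 < R → ∀ x : EE n,
    gsq (cut R) x ≤ C / R ^ 2 ∧ (2 * R ≤ ‖x‖ → gsq (cut R) x = 0) ∧
      (‖x‖ < R → gsq (cut R) x = 0) := by
  obtain ⟨C, hC, h⟩ := exists_cut_bound n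
  refine ⟨n * C ^ 2, by positivity, fun R hR x => ⟨?_, fun hx => ?_, fun hx => ?_⟩⟩
  · have : ∀ i, pdv i (cut R) x ^ 2 ≤ (C / R) ^ 2 := fun i => by
      rw [← sq_abs]; exact pow_le_pow_left₀ (abs_nonneg _) (h R hR i x).1 2
    calc gsq (cut R) x ≤ ∑ _i : Fin n, (C / R) ^ 2 := Finset.sum_le_sum fun i _ => this i
      _ = n * C ^ 2 / R ^ 2 := by simp [div_pow, mul_div_assoc]
  · exact Finset.sum_eq_zero fun i _ => by rw [(pdv_cut_far hR hx i).eq_of_nhds]; simp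
  · exact Finset.sum_eq_zero fun i _ => by rw [(pdv_cut_near hR hx i).eq_of_nhds]; simp

theorem one_le_br (x : EE n) : 1 ≤ br x := by
  unfold br; rw [Real.one_le_sqrt]; nlinarith [sq_nonneg ‖x‖]

theorem br_pos (x : EE n) : 0 < br x := lt_of_lt_of_le one_pos (one_le_br x)

theorem br_sq (x : EE n) : br x ^ 2 = 1 + ‖x‖ ^ 2 := Real.sq_sqrt (by positivity)

theorem norm_le_br (x : EE n) : ‖x‖ ≤ br x := by
  have := br_sq x; have := br_pos x
  nlinarith [norm_nonneg x]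

theorem br_le (x : EE n) : br x ≤ 1 + ‖x‖ := by
  have := br_sq x; have := br_pos x
  nlinarith [norm_nonneg x]

theorem contDiff_br : ContDiff ℝ ∞ (br : EE n → ℝ) :=
  (contDiff_const.add (contDiff_norm_sq ℝ)).sqrt fun x => by positivity

theorem pdv_br (i : Fin n) (x : EE n) : pdv i br x = x i / br x := by
  have h1 : HasDerivAt (fun s : ℝ => Real.sqrt (1 + s)) (1 / (2 * br x)) (‖x - 0‖ ^ 2) := by
    have := ((hasDerivAt_id (‖x - 0‖ ^ 2)).const_add 1).sqrt (by simp only [id]; positivity)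
    simpa [br] using this
  have h2 : DifferentiableAt ℝ (fun y : EE n => ‖y - 0‖ ^ 2) x :=
    (((contDiff_norm_sq ℝ (n := 1)).comp (contDiff_id.sub contDiff_const)).differentiable
      (by norm_num)) x
  have h3 := pdv_comp (f := fun y : EE n => ‖y - 0‖ ^ 2) h1 h2 i
  rw [pdv_normSq] at h3
  have h4 : (br : EE n → ℝ) = fun y => Real.sqrt (1 + ‖y - 0‖ ^ 2) := by funext y; simp [br]
  have h5 := br_pos x
  rw [h4, h3]
  simp only [sub_zero, PiLp.zero_apply]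
  have h6 : Real.sqrt (1 + ‖x‖ ^ 2) = br x := rfl
  rw [h6]; field_simp

theorem contDiff_zeta (R : ℝ) : ContDiff ℝ ∞ (zeta R : EE n → ℝ) :=
  ((contDiff_cut' R).pow 2).div (contDiff_br.pow 5) fun x => (pow_pos (br_pos x) 5).ne'

theorem zeta_nonneg (R : ℝ) (x : EE n) : 0 ≤ zeta R x := by
  have := br_pos x; unfold zeta; positivity

theorem cs_zeta {R : ℝ} (hR : 0 < R) : HasCompactSupport (zeta R : EE n → ℝ) :=
  HasCompactSupport.intro (isCompact_closedBall (0 : EE n) (2 * R)) fun x hx => by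
    unfold zeta
    rw [cut_zero hR (by simpa using (not_le.1 (by simpa using hx)).le)]; simp

end Crest.Agent.N067.X7
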